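import Vale.Agent.P117.AN577.Defs
import Vale.Agent.P122.S590.G3

/-! # P117 / AN590 : block [A1], the sphere near `(4/9, 4/9, 7/9)` is an elliptic surface piece -/

namespace Vale.Agent.P117.AN590

theorem stSph : AN577.StSph := by
  obtain ⟨C, h1, h2⟩ := Vale.Agent.P122.S590.srf_sphere
  exact ⟨C, h1, h2⟩

end Vale.Agent.P117.AN590
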